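import Vale.Agent.P089GP.Wide
import Vale.Agent.P089G.Defs

/-! P089G: the cocompact invariant subcomplexes of a classifying space for proper actions. -/

namespace Vale.Agent.P089G

open Set Topology RelCWComplex MulAction Vale.Agent.P089Z Vale.Agent.P089GP

variable {G X : Type} [Group G] [TopologicalSpace X] [MulAction G X] [ContinuousConstSMul G X]
  [CWComplex (Set.univ : Set X)]

theorem IsEG.cel (h : IsEG G X) : Cel G X :=
  have := h.t2
  Cel.of_perm (fun g c => (h.cells g c.1 c.2).elim fun j e => ⟨⟨c.1, j⟩, e⟩) fun x =>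
    have := h.proper x
    toFinite (stabilizer G x : Set G)

omit [ContinuousConstSMul G X] in
theorem Sub.closed (Y : Sub G X) : IsClosed (Y.Y : Set X) :=
  Y.subcomplex.elim fun C e => e ▸ C.closed

omit [ContinuousConstSMul G X] in
theorem Sub.sat (Y : Sub G X) : Sat (Y.Y : Set X) :=
  Y.subcomplex.elim fun C e => e ▸ sat_sub C

theorem IsEG.fo (h : IsEG G X) (Y : Sub G X) : Fo G (Y.Y : Set X) :=
  have := h.t2
  h.cel.fo_sub Y.Y Y.sat Y.compact

/-- A `G`-compact invariant subcomplex is a proper cocompact space. -/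
theorem IsEG.properCocompact (h : IsEG G X) (Y : Sub G X) : IsProperCocompact G Y.Y :=
  have := h.t2
  h.cel.proper_sub Y.Y Y.closed (h.fo Y)

/-- A closed invariant union of finitely many orbits of cells. -/
def IsEG.mkSub (h : IsEG G X) (Y : SubMulAction G X) (h1 : IsClosed (Y : Set X))
    (h2 : Sat (Y : Set X)) (h3 : Fo G (Y : Set X)) : Sub G X :=
  have := h.t2
  ⟨Y, ⟨h2.sub h1, rfl⟩, (h.cel.proper_sub Y h1 h3).2.2.2⟩

/-- Every point lies in a `G`-compact invariant subcomplex. -/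
theorem IsEG.exists_mem (h : IsEG G X) (x : X) : ∃ Y : Sub G X, x ∈ Y.Y := by
  have := h.t2
  obtain ⟨Y, a, b, c, d⟩ := h.cel.exists_sub x
  exact ⟨h.mkSub Y a b c, d⟩

omit [ContinuousConstSMul G X] in
theorem IsEG.nonempty (h : IsEG G X) : Nonempty X := by
  have := h.contractible ⊥ inferInstance
  obtain ⟨x⟩ : Nonempty (fixedPoints (⊥ : Subgroup G) X) := inferInstance
  exact ⟨x.1⟩

theorem IsEG.exists_point (h : IsEG G X) : ∃ Y : Sub G X, Nonempty Y.Y :=
  h.nonempty.elim fun x => (h.exists_mem x).imp fun _ e => ⟨⟨x, e⟩⟩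

/-- The `G`-compact invariant subcomplexes are directed. -/
theorem IsEG.directed (h : IsEG G X) : IsDirectedOrder (Sub G X) :=
  ⟨fun Y W => ⟨h.mkSub ⟨Y.Y ∪ W.Y, fun g _ e => e.imp (Y.Y.smul_mem g) (W.Y.smul_mem g)⟩
    (Y.closed.union W.closed) (Y.sat.union W.sat) ((h.fo Y).union (h.fo W)),
    fun _ e => Or.inl e, fun _ e => Or.inr e⟩⟩

theorem IsEG.nonempty_sub (h : IsEG G X) : Nonempty (Sub G X) :=
  h.exists_point.elim fun Y _ => ⟨Y⟩

/-- An orbit map. -/
theorem IsEG.exists_orbit [TopologicalSpace G] [DiscreteTopology G] (h : IsEG G X) :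
    ∃ (Y : Sub G X) (f : CocompactMap G Y.Y), ∀ (g x : G), f (g • x) = g • f x := by
  obtain ⟨Y, ⟨y⟩⟩ := h.exists_point
  have := (h.properCocompact Y).2.2.1
  refine ⟨Y, ⟨⟨(· • y), continuous_of_discreteTopology⟩,
    CocompactMap.tendsto_of_forall_preimage fun K hK => Finite.isCompact ?_⟩,
    fun g x => mul_smul g x y⟩
  exact (ProperlyDiscontinuousSMul.finite_disjoint_inter_image (Γ := G) isCompact_singleton
    hK).subset fun g e => ⟨_, ⟨y, rfl, rfl⟩, e⟩

end Vale.Agent.P089G
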