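import Vale.Agent.P089Z.Defs
import Mathlib.Topology.CWComplex.Classical.Subcomplex

/-! P089G: cocompact invariant subcomplexes of proper equivariant CW complexes. -/

namespace Vale.Agent.P089GP

open Set Topology RelCWComplex

variable {G X : Type} [Group G] [TopologicalSpace X] [CWComplex (univ : Set X)]

/-- All cells. -/
abbrev Cl (X : Type) [TopologicalSpace X] [CWComplex (univ : Set X)] : Type :=
  Σ n, cell (univ : Set X) n

/-- The open cell. -/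
def oc (c : Cl X) : Set X := openCell c.1 c.2

/-- The closed cell. -/
def cc (c : Cl X) : Set X := closedCell c.1 c.2

theorem exists_cel (x : X) : ∃ c : Cl X, x ∈ oc c := by
  have h : x ∈ ⋃ (n : ℕ) (j : cell (univ : Set X) n), openCell n j := by
    rw [CWComplex.iUnion_openCell_eq_complex]
    trivial
  obtain ⟨n, j, h⟩ := mem_iUnion₂.1 h
  exact ⟨⟨n, j⟩, h⟩

theorem oc_eq {c d : Cl X} {x : X} (h : x ∈ oc c) (h' : x ∈ oc d) : c = d :=
  eq_of_not_disjoint_openCell (not_disjoint_iff.2 ⟨x, h, h'⟩)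

theorem oc_sub (c : Cl X) : oc c ⊆ cc c := openCell_subset_closedCell _ _

theorem oc_ne (c : Cl X) : (oc c).Nonempty := openCell_nonempty _ _

theorem cc_cpt (c : Cl X) : IsCompact (cc c) := isCompact_closedCell

theorem fin_meet (c : Cl X) : {d : Cl X | (cc c ∩ oc d).Nonempty}.Finite := by
  obtain ⟨I, hI⟩ := CWComplex.cellFrontier_subset_finite_openCell c.1 c.2
  have h1 : (⋃ m ∈ Iio c.1, (fun j => (⟨m, j⟩ : Cl X)) '' (I m : Set _)).Finite :=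
    (finite_Iio _).biUnion fun m _ => (I m).finite_toSet.image _
  refine (h1.insert c).subset ?_
  rintro d ⟨x, h2, h3⟩
  rw [cc, ← cellFrontier_union_openCell_eq_closedCell] at h2
  rcases h2 with h2 | h2
  · obtain ⟨m, hm, j, hj, h4⟩ : ∃ m < c.1, ∃ j ∈ I m, x ∈ openCell m j := by
      simpa only [mem_iUnion, exists_prop] using hI h2
    exact Or.inr (mem_biUnion hm ⟨j, hj, oc_eq (c := ⟨m, j⟩) h4 h3⟩)
  · exact Or.inl (oc_eq h3 h2)

variable [T2Space X]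

theorem closed_of {A : Set X} (h : ∀ c : Cl X, IsClosed (A ∩ cc c)) : IsClosed A :=
  (CWComplex.closed univ A (subset_univ _)).2 fun n j => h ⟨n, j⟩

theorem clo_oc (c : Cl X) : closure (oc c) = cc c := closure_openCell_eq_closedCell

theorem closed_of_fin {A : Set X} (h : ∀ c : Cl X, (A ∩ oc c).Finite) : IsClosed A := by
  refine closed_of fun c => Finite.isClosed (((fin_meet c).biUnion fun d _ => h d).subset ?_)
  rintro x ⟨h1, h2⟩
  obtain ⟨d, hd⟩ := exists_cel x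
  exact mem_biUnion (x := d) ⟨x, h2, hd⟩ ⟨h1, hd⟩

variable [MulAction G X]

variable (G X) in
/-- The action permutes the open cells, with finite stabilisers of cells. -/
structure Cel : Prop where
  perm : ∀ (g : G) (c : Cl X), ∃ d : Cl X, (g • ·) '' oc c = oc d
  fin : ∀ c : Cl X, {g : G | (g • ·) '' oc c = oc c}.Finite

omit [T2Space X] in
/-- The usual conditions. -/
theorem Cel.of_fix (perm : ∀ (g : G) (c : Cl X), ∃ d : Cl X, (g • ·) '' oc c = oc d)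
    (fix : ∀ (g : G) (c : Cl X), (g • ·) '' oc c = oc c → ∀ x ∈ oc c, g • x = x)
    (fin : ∀ x : X, {g : G | g • x = x}.Finite) : Cel G X :=
  ⟨perm, fun c => (oc_ne c).elim fun x hx => (fin x).subset fun g hg => fix g c hg x hx⟩

namespace Cel

section

omit [T2Space X]

theorem img (h : Cel G X) {g : G} {c d : Cl X} {x : X} (hx : x ∈ oc c) (hg : g • x ∈ oc d) :
    (g • ·) '' oc c = oc d := by
  obtain ⟨e, he⟩ := h.perm g c
  rw [he, oc_eq (c := e) (he ▸ mem_image_of_mem _ hx) hg]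

theorem mem (h : Cel G X) {g : G} {c d : Cl X} {x y : X} (hx : x ∈ oc c) (hy : y ∈ oc c)
    (hg : g • x ∈ oc d) : g • y ∈ oc d :=
  h.img hx hg ▸ mem_image_of_mem (g • ·) hy

theorem fin_tr (h : Cel G X) (x : X) (d : Cl X) : {g : G | g • x ∈ oc d}.Finite := by
  rcases eq_empty_or_nonempty {g : G | g • x ∈ oc d} with h0 | ⟨a, ha⟩
  · rw [h0]
    exact finite_empty
  · refine ((h.fin d).image (· * a)).subset fun g hg => ⟨g * a⁻¹, h.img ha ?_, by simp⟩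
    rw [mul_smul, inv_smul_smul]
    exact hg

theorem fin_cc (h : Cel G X) (c d : Cl X) :
    {g : G | ((g • ·) '' cc c ∩ cc d).Nonempty}.Finite := by
  refine ((fin_meet c).biUnion fun e _ => (fin_meet d).biUnion fun f _ =>
    h.fin_tr (oc_ne e).some f).subset ?_
  rintro g ⟨_, ⟨y, h1, rfl⟩, h2⟩
  obtain ⟨e, he⟩ := exists_cel y
  obtain ⟨f, hf⟩ := exists_cel (g • y)
  exact mem_biUnion (x := e) ⟨y, h1, he⟩
    (mem_biUnion (x := f) ⟨_, h2, hf⟩ (h.mem he (oc_ne e).some_mem hf))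

end

variable [ContinuousConstSMul G X]

theorem img_cc (h : Cel G X) (g : G) (c : Cl X) : ∃ d : Cl X, (g • ·) '' cc c = cc d := by
  obtain ⟨d, hd⟩ := h.perm g c
  exact ⟨d, by rw [← clo_oc, ← clo_oc, ← hd]; exact (Homeomorph.smul g).image_closure _⟩

/-- A compactness property gives finitely many orbits of cells. -/
theorem fin_orb (h : Cel G X) {Y : Set X} (hs : ∀ (g : G), ∀ y ∈ Y, g • y ∈ Y)
    (hc : ∀ c : Cl X, ∀ y ∈ Y, y ∈ oc c → oc c ⊆ Y)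
    (hY : ∀ U : X → Set X, (∀ y, IsOpen (U y)) → (∀ y (g : G), ∀ z ∈ U y, g • z ∈ U y) →
      (∀ y, y ∈ U y) → ∃ t : Set X, t.Finite ∧ t ⊆ Y ∧ Y ⊆ ⋃ y ∈ t, U y) :
    ∃ F : Set (Cl X), F.Finite ∧ (∀ c ∈ F, oc c ⊆ Y) ∧
      ∀ y ∈ Y, ∃ g : G, ∃ c ∈ F, g • y ∈ oc c := by
  choose cel hcel using exists_cel (X := X)
  let R : X → X → Prop := fun y z => ∃ g : G, g • z ∈ oc (cel y)
  have r0 : ∀ y, R y y := fun y => ⟨1, by rw [one_smul]; exact hcel y⟩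
  have r1 : ∀ {y z}, R y z → R z y := fun {y z} ⟨g, hg⟩ =>
    ⟨g⁻¹, h.mem hg (hcel y) (by rw [inv_smul_smul]; exact hcel z)⟩
  have r2 : ∀ {y z w}, R y z → R z w → R y w := fun {y z w} ⟨g, hg⟩ ⟨k, hk⟩ =>
    ⟨g * k, by rw [mul_smul]; exact h.mem (hcel z) hk hg⟩
  let s : Setoid X := ⟨R, r0, r1, r2⟩
  let ρ : X → X := fun y => (Quotient.mk s y).out
  have p0 : ∀ y, R (ρ y) y := fun y => Quotient.mk_out (s := s) y
  have p1 : ∀ {y z}, R y z → ρ y = ρ z := fun {y z} e =>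
    congrArg Quotient.out (Quotient.sound (s := s) e)
  have p2 : ∀ (g : G) y, ρ (g • y) = ρ y := fun g y => p1 ⟨g, hcel _⟩
  obtain ⟨t, t1, t2, t3⟩ := hY (fun y => {z | (∃ g : G, g • ρ z = z) ∧ ρ z ≠ ρ y}ᶜ)
    (fun y => isOpen_compl_iff.2 (closed_of_fin fun c => by
      refine ((h.fin_tr (ρ (oc_ne c).some) c).image fun g => g • ρ (oc_ne c).some).subset ?_
      rintro z ⟨⟨⟨g, hg⟩, -⟩, hz⟩
      have e : ρ z = ρ (oc_ne c).some :=
        p1 ⟨1, by rw [one_smul, oc_eq (hcel z) hz]; exact (oc_ne c).some_mem⟩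
      exact ⟨g, by rw [mem_ofPred_eq, ← e, hg]; exact hz, by rw [← e]; exact hg⟩))
    (fun y g z hz ⟨⟨k, hk⟩, e⟩ => hz ⟨⟨g⁻¹ * k, by
      rw [mul_smul, ← p2 g z, hk, inv_smul_smul]⟩, by rwa [p2] at e⟩)
    (fun y e => e.2 rfl)
  refine ⟨cel '' t, t1.image _, ?_, fun y hy => ?_⟩
  · rintro _ ⟨y, hy, rfl⟩
    exact hc _ y (t2 hy) (hcel y)
  · obtain ⟨g, hg⟩ := p0 y
    have e : ρ (ρ y) = ρ y := p1 (p0 y)
    obtain ⟨z, hz, h1⟩ := mem_iUnion₂.1 (t3 (hc _ _ (hs g y hy) hg (hcel (ρ y))))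
    have h2 : ρ y = ρ z := by
      by_contra h3
      exact h1 ⟨⟨1, by rw [one_smul, e]⟩, by rwa [e]⟩
    obtain ⟨k, hk⟩ := r2 (r1 (p0 z)) (h2 ▸ p0 y)
    exact ⟨k, _, mem_image_of_mem _ hz, hk⟩

/-- With finitely many orbits of cells, every point has a neighbourhood which lies in finitely
many closed cells. -/
theorem nhd (h : Cel G X) {Y : Set X} {F : Set (Cl X)} (hF : F.Finite)
    (hY : ∀ y ∈ Y, ∃ g : G, ∃ c ∈ F, g • y ∈ cc c) (x : X) :
    ∃ U : Set X, IsOpen U ∧ x ∈ U ∧ ∃ T : Set (Cl X), T.Finite ∧ U ∩ Y ⊆ ⋃ d ∈ T, cc d := by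
  choose tr htr using h.img_cc
  have hfin : ∀ d : Cl X, {p : G × Cl X | p.2 ∈ F ∧ (cc (tr p.1 p.2) ∩ cc d).Nonempty}.Finite := by
    intro d
    refine (hF.biUnion fun c _ => (h.fin_cc c d).image fun g => (g, c)).subset ?_
    rintro ⟨g, c⟩ ⟨h1, h2⟩
    exact mem_biUnion h1 ⟨g, by rw [mem_ofPred_eq, htr]; exact h2, rfl⟩
  obtain ⟨e, he⟩ := exists_cel x
  refine ⟨(⋃ p ∈ {p : G × Cl X | p.2 ∈ F ∧ x ∉ cc (tr p.1 p.2)}, cc (tr p.1 p.2))ᶜ,
    isOpen_compl_iff.2 (closed_of fun d => ?_), fun hx => ?_,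
    (fun p : G × Cl X => tr p.1 p.2) '' _, (hfin e).image _, ?_⟩
  · have h1 : (⋃ p ∈ {p : G × Cl X | p.2 ∈ F ∧ x ∉ cc (tr p.1 p.2)}, cc (tr p.1 p.2)) ∩ cc d =
        ⋃ p ∈ {p : G × Cl X | (p.2 ∈ F ∧ (cc (tr p.1 p.2) ∩ cc d).Nonempty) ∧
          x ∉ cc (tr p.1 p.2)}, cc (tr p.1 p.2) ∩ cc d := by
      ext z
      simp only [mem_inter_iff, mem_iUnion, mem_ofPred_eq, exists_prop]
      exact ⟨fun ⟨⟨p, ⟨a, b⟩, c⟩, k⟩ => ⟨p, ⟨⟨a, z, c, k⟩, b⟩, c, k⟩,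
        fun ⟨p, ⟨⟨a, _⟩, b⟩, c, k⟩ => ⟨⟨p, ⟨a, b⟩, c⟩, k⟩⟩
    rw [h1]
    exact ((hfin d).subset fun p hp => hp.1).isClosed_biUnion fun p _ =>
      (cc_cpt _).isClosed.inter (cc_cpt _).isClosed
  · obtain ⟨p, hp, h1⟩ := mem_iUnion₂.1 hx
    exact hp.2 h1
  · rintro y ⟨h1, h2⟩
    obtain ⟨g, c, hc, h3⟩ := hY y h2
    have h4 : y ∈ cc (tr g⁻¹ c) := htr g⁻¹ c ▸ ⟨_, h3, inv_smul_smul g y⟩
    have h5 : x ∈ cc (tr g⁻¹ c) := by
      by_contra h6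
      exact h1 (mem_biUnion (x := (g⁻¹, c)) ⟨hc, h6⟩ h4)
    exact mem_biUnion (mem_image_of_mem _ (show (g⁻¹, c) ∈ _ from ⟨hc, x, h5, oc_sub e he⟩)) h4

end Cel

end Vale.Agent.P089GP
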