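import Vale.Agent.P089GP.Main
import Vale.Agent.P089Z.Cyc

/-! P089G: push-forward of cycles along equivariant proper maps, and exhaustion of a proper
equivariant CW complex by cocompact invariant subcomplexes. -/

namespace Vale.Agent.P089GP

open Set Topology RelCWComplex MulAction Vale.Agent.P089Z
open scoped ZeroAtInfty

section

variable {G W Z : Type} [Group G] [TopologicalSpace W] [MulAction G W] [ContinuousConstSMul G W]
  [TopologicalSpace Z] [MulAction G Z] [ContinuousConstSMul G Z]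

/-- A closed embedding as a cocompact map. -/
def cmap {W Z : Type} [TopologicalSpace W] [TopologicalSpace Z] {j : Z → W}
    (hj : IsClosedEmbedding j) : CocompactMap Z W :=
  ⟨⟨j, hj.continuous⟩, hj.tendsto_cocompact⟩

/-- Restriction of functions along a cocompact map. -/
noncomputable def res {W Z : Type} [TopologicalSpace W] [TopologicalSpace Z] (φ : CocompactMap Z W) :
    C₀(W, ℂ) →⋆ₙₐ[ℂ] C₀(Z, ℂ) :=
  { ZeroAtInftyContinuousMap.compNonUnitalAlgHom φ with map_star' := fun _ => rfl }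

theorem res_apply {W Z : Type} [TopologicalSpace W] [TopologicalSpace Z] (φ : CocompactMap Z W)
    (f : C₀(W, ℂ)) : res φ f = f.comp φ := rfl

theorem shift_comp (φ : CocompactMap Z W) (he : ∀ (g : G) z, φ (g • z) = g • φ z) (g : G)
    (f : C₀(W, ℂ)) : shift g (f.comp φ) = (shift g f).comp φ :=
  ZeroAtInftyContinuousMap.ext fun z => congrArg f (he g⁻¹ z)

omit [ContinuousConstSMul G W] [ContinuousConstSMul G Z] in
theorem cutoff_comp [T2Space W] (φ : CocompactMap Z W) (he : ∀ (g : G) z, φ (g • z) = g • φ z)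
    {w : C₀(W, ℂ)} (hw : IsCutoff G W w) : IsCutoff G Z (w.comp φ) := by
  refine ⟨(φ.isCompact_preimage hw.1).of_isClosed_subset (isClosed_tsupport _)
    (closure_minimal (fun z hz => subset_tsupport w hz)
      ((isClosed_tsupport w).preimage φ.continuous)), fun z => hw.2.1 (φ z), fun z => ?_⟩
  rw [← hw.2.2 (φ z)]
  exact finsum_congr fun g => congrArg (fun x => w x ^ 2) (he g⁻¹ z)

variable {H : Type} [NormedAddCommGroup H] [InnerProductSpace ℂ H] [CompleteSpace H]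

/-- Push-forward of a cycle along an equivariant cocompact map. -/
noncomputable def push (φ : CocompactMap Z W) (he : ∀ (g : G) z, φ (g • z) = g • φ z) (c : Cycle G Z H) :
    Cycle G W H where
  γ := c.γ
  ρ := c.ρ.comp (res φ)
  U := c.U
  F := c.F
  γ_star := c.γ_star
  γ_sq := c.γ_sq
  ρ_even _ := c.ρ_even _
  U_even := c.U_even
  F_odd := c.F_odd
  covariant g f := (c.covariant g _).trans (congrArg c.ρ (shift_comp φ he g f))
  compact_sq _ := c.compact_sq _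
  compact_star _ := c.compact_star _
  compact_comm _ := c.compact_comm _
  compact_inv g _ := c.compact_inv g _

theorem isProj_comp (φ : CocompactMap Z W) (he : ∀ (g : G) z, φ (g • z) = g • φ z)
    {c : Cycle G Z H} {d : Cycle G W H} (hρ : ∀ f, d.ρ f = c.ρ (f.comp φ)) (hU : d.U = c.U)
    {w : C₀(W, ℂ)} {p : MonoidAlgebra (H →L[ℂ] H) G} : d.IsProj w p ↔ c.IsProj (w.comp φ) p := by
  have h : ∀ s : G, d.ρ (w * shift s w) * (d.U s).1 =
      c.ρ (w.comp φ * shift s (w.comp φ)) * (c.U s).1 := fun s => by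
    rw [hρ, hU, shift_comp φ he]
    rfl
  exact ⟨fun k => ⟨fun s => (k.1 s).trans (h s)⟩, fun k => ⟨fun s => (k.1 s).trans (h s).symm⟩⟩

theorem index_eq {c : Cycle G Z H} {d : Cycle G W H} (hγ : d.γ = c.γ) (hF : d.F = c.F)
    (p : MonoidAlgebra (H →L[ℂ] H) G) : d.index p = c.index p := by
  rw [Cycle.index, Cycle.index, Cycle.even, Cycle.even, Cycle.odd, Cycle.odd, hγ, hF]

end

variable {G X : Type} [Group G] [TopologicalSpace X] [MulAction G X] [CWComplex (univ : Set X)]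

/-- Each cell lies in a finite subcomplex. -/
theorem exists_fin_sub (c : Cl X) :
    ∃ F : Set (Cl X), F.Finite ∧ c ∈ F ∧ ∀ d ∈ F, cc d ⊆ ⋃ e ∈ F, oc e := by
  obtain ⟨n, j⟩ := c
  induction n using Nat.strong_induction_on with
  | _ n ih =>
    choose F f1 f2 f3 using ih
    obtain ⟨I, hI⟩ := CWComplex.cellFrontier_subset_finite_openCell n j
    refine ⟨insert ⟨n, j⟩ (⋃ m : Fin n, ⋃ k ∈ I m, F m m.2 k), Finite.insert _
      (finite_iUnion fun m => (I m).finite_toSet.biUnion fun k _ => f1 _ _ k), Or.inl rfl, ?_⟩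
    rintro d (rfl | hd) x hx
    · rw [cc, ← cellFrontier_union_openCell_eq_closedCell] at hx
      rcases hx with hx | hx
      · obtain ⟨m, hm, k, hk, h4⟩ : ∃ m < n, ∃ j ∈ I m, x ∈ openCell m j := by
          simpa only [mem_iUnion, exists_prop] using hI hx
        exact mem_iUnion₂.2 ⟨⟨m, k⟩,
          Or.inr (mem_iUnion.2 ⟨⟨m, hm⟩, mem_iUnion₂.2 ⟨k, hk, f2 _ _ k⟩⟩), h4⟩
      · exact mem_iUnion₂.2 ⟨⟨n, j⟩, Or.inl rfl, hx⟩
    · obtain ⟨m, h1⟩ := mem_iUnion.1 hd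
      obtain ⟨k, hk, h2⟩ := mem_iUnion₂.1 h1
      obtain ⟨e, he, h3⟩ := mem_iUnion₂.1 (f3 _ _ k d h2 hx)
      exact mem_biUnion (Or.inr (mem_iUnion.2 ⟨m, mem_iUnion₂.2 ⟨k, hk, he⟩⟩)) h3

variable [T2Space X] [ContinuousConstSMul G X]

/-- The orbit of a finite subcomplex is a cocompact invariant subcomplex. -/
theorem Cel.orbit_fin (h : Cel G X) {F : Set (Cl X)} (hF : F.Finite)
    (hc : ∀ d ∈ F, cc d ⊆ ⋃ e ∈ F, oc e) : ∃ Y : SubMulAction G X, IsClosed (Y : Set X) ∧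
      Sat (Y : Set X) ∧ Fo G (Y : Set X) ∧ ∀ c ∈ F, oc c ⊆ Y := by
  have h0 : ∀ c ∈ F, ∀ y ∈ oc c, ∃ g : G, ∃ c ∈ F, g • y ∈ oc c := fun c e y hy =>
    ⟨1, c, e, by rwa [one_smul]⟩
  refine ⟨⟨{y | ∃ g : G, ∃ c ∈ F, g • y ∈ oc c}, fun k y ⟨g, c, e, hy⟩ =>
    ⟨g * k⁻¹, c, e, by rwa [mul_smul, inv_smul_smul]⟩⟩, closed_of fun d => ?_,
    fun c y ⟨g, d, e, hy⟩ hc z hz => ⟨g, d, e, h.mem hc hz hy⟩, ⟨F, hF, h0, fun y hy => hy⟩, h0⟩
  have h1 : {y | ∃ g : G, ∃ c ∈ F, g • y ∈ oc c} ∩ cc d =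
      ⋃ c ∈ F, ⋃ g ∈ {g : G | ((g • ·) '' cc c ∩ cc d).Nonempty}, (g • ·) '' cc c ∩ cc d := by
    refine Subset.antisymm ?_ (iUnion₂_subset fun c e => iUnion₂_subset fun g _ => ?_)
    · rintro y ⟨⟨g, c, e, hy⟩, k⟩
      have h2 : y ∈ (g⁻¹ • ·) '' cc c := ⟨_, oc_sub c hy, inv_smul_smul g y⟩
      exact mem_biUnion e (mem_biUnion (x := g⁻¹) ⟨y, h2, k⟩ ⟨h2, k⟩)
    · rintro _ ⟨⟨y, hy, rfl⟩, k⟩
      obtain ⟨a, ha, h2⟩ := mem_iUnion₂.1 (hc c e hy)
      exact ⟨⟨g⁻¹, a, ha, by rwa [inv_smul_smul]⟩, k⟩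
  refine h1 ▸ hF.isClosed_biUnion fun c _ => (h.fin_cc c d).isClosed_biUnion fun g _ => ?_
  exact ((cc_cpt c).image (continuous_const_smul g)).isClosed.inter (cc_cpt d).isClosed

/-- Each point lies in a cocompact invariant subcomplex. -/
theorem Cel.exists_sub (h : Cel G X) (x : X) : ∃ Y : SubMulAction G X, IsClosed (Y : Set X) ∧
    Sat (Y : Set X) ∧ Fo G (Y : Set X) ∧ x ∈ Y := by
  obtain ⟨c, hc⟩ := exists_cel x
  obtain ⟨F, h1, h2, h3⟩ := exists_fin_sub c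
  obtain ⟨Y, a, b, d, e⟩ := h.orbit_fin h1 h3
  exact ⟨Y, a, b, d, e c h2 hc⟩

end Vale.Agent.P089GP
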