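import Vale.Agent.P089GP.Cw

/-! P089G: a cocompact invariant subcomplex of a proper equivariant CW complex is a proper,
cocompact space. -/

namespace Vale.Agent.P089GP

open Set Topology RelCWComplex MulAction Vale.Agent.P089Z

variable {G X Z : Type} [Group G] [TopologicalSpace X] [MulAction G X]
  [TopologicalSpace Z] [MulAction G Z]

/-- Invariant open covers of a space with compact orbit space. -/
theorem cover_quot [ContinuousConstSMul G Z] [CompactSpace (orbitRel.Quotient G Z)]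
    (U : Z → Set Z) (h1 : ∀ y, IsOpen (U y)) (h2 : ∀ y (g : G), ∀ z ∈ U y, g • z ∈ U y)
    (h3 : ∀ y, y ∈ U y) : ∃ t : Set Z, t.Finite ∧ ∀ z, ∃ y ∈ t, z ∈ U y := by
  let _ := orbitRel G Z
  have hcov : (univ : Set (orbitRel.Quotient G Z)) ⊆
      ⋃ x : Z, (Quotient.mk' : Z → Quotient (orbitRel G Z)) '' U x := by
    intro q _
    obtain ⟨x, rfl⟩ := Quotient.exists_rep q
    exact mem_iUnion.2 ⟨x, x, h3 x, rfl⟩
  obtain ⟨t, ht⟩ := isCompact_univ.elim_finite_subcover _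
    (fun x => isOpenMap_quotient_mk'_mul _ (h1 x)) hcov
  refine ⟨t, t.finite_toSet, fun x => ?_⟩
  obtain ⟨y, hy, z, hz, hzx⟩ :=
    mem_iUnion₂.1 (ht (mem_univ (Quotient.mk' x : Quotient (orbitRel G Z))))
  obtain ⟨g, hg⟩ : z ∈ orbit G x := Quotient.exact hzx
  refine ⟨y, hy, ?_⟩
  have h4 := h2 y g⁻¹ z hz
  rwa [← hg, inv_smul_smul] at h4

/-- A compact set which meets all orbits gives a compact orbit space. -/
theorem quot_of_cpt {K : Set Z} (hK : IsCompact K) (h : ∀ z, ∃ g : G, g • z ∈ K) :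
    CompactSpace (orbitRel.Quotient G Z) := by
  let _ := orbitRel G Z
  refine ⟨?_⟩
  have h1 : (univ : Set (orbitRel.Quotient G Z)) =
      (Quotient.mk' : Z → Quotient (orbitRel G Z)) '' K := by
    refine (eq_univ_of_forall fun q => ?_).symm
    obtain ⟨x, rfl⟩ := Quotient.exists_rep q
    obtain ⟨g, hg⟩ := h x
    exact ⟨_, hg, Quotient.sound (mem_orbit x g)⟩
  rw [h1]
  exact hK.image continuous_quotient_mk'

variable [CWComplex (univ : Set X)]

/-- `Y` is a union of open cells. -/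
def Sat (Y : Set X) : Prop := ∀ c : Cl X, ∀ y ∈ Y, y ∈ oc c → oc c ⊆ Y

variable (G) in
/-- `Y` is covered by the orbits of finitely many of its cells. -/
def Fo (Y : Set X) : Prop :=
  ∃ F : Set (Cl X), F.Finite ∧ (∀ c ∈ F, oc c ⊆ Y) ∧ ∀ y ∈ Y, ∃ g : G, ∃ c ∈ F, g • y ∈ oc c

theorem sat_of {Y : Set X} (h : ∀ y ∈ Y, ∃ c : Cl X, y ∈ oc c ∧ oc c ⊆ Y) : Sat Y :=
  fun c y hy hc => by
    obtain ⟨d, h1, h2⟩ := h y hy
    rw [oc_eq hc h1]
    exact h2

theorem Sat.ex {Y : Set X} (h : Sat Y) : ∀ y ∈ Y, ∃ c : Cl X, y ∈ oc c ∧ oc c ⊆ Y :=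
  fun y hy => (exists_cel y).imp fun c hc => ⟨hc, h c y hy hc⟩

theorem sat_sub (Y : Subcomplex (univ : Set X)) : Sat (Y : Set X) := by
  refine sat_of fun y hy => ?_
  rw [← CWComplex.Subcomplex.union] at hy ⊢
  obtain ⟨n, j, h⟩ := mem_iUnion₂.1 hy
  exact ⟨⟨n, j⟩, h, subset_iUnion₂_of_subset n j subset_rfl⟩

/-- The subcomplex given by a closed union of open cells. -/
def Sat.sub {Y : Set X} (h : Sat Y) (hc : IsClosed Y) : Subcomplex (univ : Set X) where
  carrier := Y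
  I n := {j | openCell n j ⊆ Y}
  closed' := hc
  union' := by
    rw [empty_union]
    refine Subset.antisymm (iUnion₂_subset fun n j => j.2) fun y hy => ?_
    obtain ⟨c, h1, h2⟩ := h.ex y hy
    exact mem_iUnion₂.2 ⟨c.1, ⟨c.2, h2⟩, h1⟩

theorem Sat.union {Y W : Set X} (h : Sat Y) (k : Sat W) : Sat (Y ∪ W) := fun c y hy hc =>
  hy.elim (fun e => (h c y e hc).trans subset_union_left) fun e =>
    (k c y e hc).trans subset_union_right

theorem Fo.union {Y W : Set X} (h : Fo G Y) (k : Fo G W) : Fo G (Y ∪ W) := by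
  obtain ⟨A, a1, a2, a3⟩ := h
  obtain ⟨B, b1, b2, b3⟩ := k
  refine ⟨A ∪ B, a1.union b1, fun c hc => hc.elim (fun e => (a2 c e).trans subset_union_left)
    fun e => (b2 c e).trans subset_union_right, fun y hy => hy.elim (fun e => ?_) fun e => ?_⟩
  · obtain ⟨g, c, h1, h2⟩ := a3 y e
    exact ⟨g, c, Or.inl h1, h2⟩
  · obtain ⟨g, c, h1, h2⟩ := b3 y e
    exact ⟨g, c, Or.inr h1, h2⟩

/-- A nonempty complex has a vertex. -/
theorem exists_vertex (x : X) : ∃ c : Cl X, ∃ v, oc c = {v} := by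
  classical
  have h : ∃ n, Nonempty (cell (univ : Set X) n) := (exists_cel x).elim fun c _ => ⟨c.1, ⟨c.2⟩⟩
  obtain ⟨j⟩ := Nat.find_spec h
  have hm := fun m => Nat.find_min h (m := m)
  generalize Nat.find h = n at j hm
  rcases n with _ | n
  · exact ⟨⟨0, j⟩, _, openCell_zero_eq_singleton⟩
  · obtain ⟨I, hI⟩ := CWComplex.cellFrontier_subset_finite_openCell (n + 1) j
    obtain ⟨y, hy⟩ : (cellFrontier (n + 1) j).Nonempty :=
      (NormedSpace.sphere_nonempty.2 zero_le_one).image _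
    obtain ⟨m, h1, k, -⟩ : ∃ m < n + 1, ∃ j ∈ I m, y ∈ openCell m j := by
      simpa only [mem_iUnion, exists_prop] using hI hy
    exact (hm m h1 ⟨k⟩).elim

variable [T2Space X]

theorem Fo.cpt {Y : Set X} (h : Fo G Y) (hc : IsClosed Y) :
    ∃ K : Set X, IsCompact K ∧ K ⊆ Y ∧ ∀ y ∈ Y, ∃ g : G, g • y ∈ K := by
  obtain ⟨F, h1, h2, h3⟩ := h
  refine ⟨⋃ c ∈ F, cc c, h1.isCompact_biUnion fun c _ => cc_cpt c,
    iUnion₂_subset fun c e => clo_oc c ▸ closure_minimal (h2 c e) hc, fun y hy => ?_⟩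
  obtain ⟨g, c, e, h4⟩ := h3 y hy
  exact ⟨g, mem_biUnion e (oc_sub c h4)⟩

variable [ContinuousConstSMul G X]

omit [CWComplex (univ : Set X)] [T2Space X] in
theorem csub (Y : SubMulAction G X) : ContinuousConstSMul G Y :=
  ⟨fun g => (continuous_subtype_val.const_smul g).subtype_mk _⟩

namespace Cel

theorem fo_of_cpt (h : Cel G X) {Y K : Set X} (hs : ∀ (g : G), ∀ y ∈ Y, g • y ∈ Y)
    (hc : Sat Y) (hK : IsCompact K) (hY : K ⊆ Y) (hg : ∀ y ∈ Y, ∃ g : G, g • y ∈ K) : Fo G Y := by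
  refine h.fin_orb hs hc fun U h1 h2 h3 => ?_
  obtain ⟨t, t1, t2⟩ := hK.elim_nhds_subcover U fun x _ => (h1 x).mem_nhds (h3 x)
  refine ⟨t, t.finite_toSet, fun x hx => hY (t1 x hx), fun y hy => ?_⟩
  obtain ⟨g, e⟩ := hg y hy
  obtain ⟨z, hz, h4⟩ := mem_iUnion₂.1 (t2 e)
  have h5 := h2 z g⁻¹ _ h4
  rw [inv_smul_smul] at h5
  exact mem_iUnion₂.2 ⟨z, hz, h5⟩

theorem fo_of_quot (h : Cel G X) [ContinuousConstSMul G Z] {j : Z → X} (hj : Continuous j)
    (he : ∀ (g : G) z, j (g • z) = g • j z) (hc : Sat (range j))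
    (hq : CompactSpace (orbitRel.Quotient G Z)) : Fo G (range j) := by
  refine h.fin_orb (fun g _ ⟨z, e⟩ => ⟨g • z, by rw [he, e]⟩) hc fun U h1 h2 h3 => ?_
  obtain ⟨t, t1, t2⟩ := cover_quot (G := G) (fun z => j ⁻¹' U (j z))
    (fun z => (h1 _).preimage hj) (fun y g z e => by
      rw [mem_preimage, he]; exact h2 _ g _ e) fun z => h3 _
  refine ⟨j '' t, t1.image _, image_subset_range _ _, ?_⟩
  rintro _ ⟨z, rfl⟩
  obtain ⟨y, hy, e⟩ := t2 z
  exact mem_biUnion (mem_image_of_mem j hy) e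

omit [ContinuousConstSMul G X] in
/-- The orbit of a vertex is a closed union of cells. -/
theorem orbit_vertex (h : Cel G X) {c : Cl X} {v : X} (hv : oc c = {v}) :
    IsClosed (orbit G v) ∧ Sat (orbit G v) ∧ Fo G (orbit G v) := by
  refine ⟨closed_of_fin fun d => ((h.fin_tr v d).image (· • v)).subset ?_, sat_of ?_,
    {c}, finite_singleton c, ?_, ?_⟩
  · rintro _ ⟨⟨g, rfl⟩, e⟩
    exact ⟨g, e, rfl⟩
  · rintro _ ⟨g, rfl⟩
    obtain ⟨d, hd⟩ := h.perm g c
    rw [hv, image_singleton] at hd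
    exact ⟨d, hd ▸ rfl, hd ▸ singleton_subset_iff.2 ⟨g, rfl⟩⟩
  · rintro _ rfl
    exact hv ▸ singleton_subset_iff.2 (mem_orbit_self v)
  · rintro _ ⟨g, rfl⟩
    exact ⟨g⁻¹, c, rfl, hv ▸ inv_smul_smul g v⟩

/-- A compact subset lies in finitely many closed cells. -/
theorem cpt_fin (h : Cel G X) {Y K : Set X} (hY : Fo G Y) (hK : IsCompact K) (hs : K ⊆ Y) :
    ∃ T : Set (Cl X), T.Finite ∧ K ⊆ ⋃ d ∈ T, cc d := by
  obtain ⟨F, h1, -, h3⟩ := hY
  choose U u1 u2 T t1 t2 using h.nhd (Y := Y) h1 fun y hy => by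
    obtain ⟨g, c, e, h4⟩ := h3 y hy
    exact ⟨g, c, e, oc_sub c h4⟩
  obtain ⟨t, -, h5⟩ := hK.elim_nhds_subcover U fun x _ => (u1 x).mem_nhds (u2 x)
  refine ⟨⋃ x ∈ t, T x, t.finite_toSet.biUnion fun x _ => t1 x, fun y hy => ?_⟩
  obtain ⟨x, hx, e⟩ := mem_iUnion₂.1 (h5 hy)
  obtain ⟨d, hd, e'⟩ := mem_iUnion₂.1 (t2 x ⟨e, hs hy⟩)
  exact mem_biUnion (mem_biUnion hx hd) e'

/-- The main statement, for finitely many orbits of cells. -/
theorem proper_of_fo (h : Cel G X) {j : Z → X} (hj : IsClosedEmbedding j)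
    (he : ∀ (g : G) z, j (g • z) = g • j z) (hY : Fo G (range j)) : IsProperCocompact G Z := by
  have h2 : T2Space Z := hj.isEmbedding.t2Space
  refine ⟨h2, ?_, ⟨fun {K L} hK hL => ?_⟩, ?_⟩
  · obtain ⟨F, h1, -, h3⟩ := hY
    have : WeaklyLocallyCompactSpace Z := ⟨fun z => by
      obtain ⟨U, u1, u2, T, t1, t2⟩ := h.nhd (Y := range j) h1 (fun y hy => by
        obtain ⟨g, c, e, h4⟩ := h3 y hy
        exact ⟨g, c, e, oc_sub c h4⟩) (j z)
      exact ⟨_, hj.isCompact_preimage (t1.isCompact_biUnion fun c _ => cc_cpt c),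
        Filter.mem_of_superset ((u1.preimage hj.continuous).mem_nhds u2)
          fun w hw => t2 ⟨hw, w, rfl⟩⟩⟩
    infer_instance
  · obtain ⟨A, a1, a2⟩ := h.cpt_fin hY (hK.image hj.continuous) (image_subset_range _ _)
    obtain ⟨B, b1, b2⟩ := h.cpt_fin hY (hL.image hj.continuous) (image_subset_range _ _)
    refine (a1.biUnion fun c _ => b1.biUnion fun d _ => h.fin_cc c d).subset ?_
    rintro g ⟨_, ⟨z, hz, rfl⟩, e⟩
    obtain ⟨c, hc, e1⟩ := mem_iUnion₂.1 (a2 (mem_image_of_mem j hz))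
    obtain ⟨d, hd, e2⟩ := mem_iUnion₂.1 (b2 (mem_image_of_mem j e))
    exact mem_biUnion hc (mem_biUnion hd ⟨_, ⟨_, e1, (he g z).symm⟩, e2⟩)
  · obtain ⟨K, k1, -, k3⟩ := hY.cpt hj.isClosed_range
    refine quot_of_cpt (hj.isCompact_preimage k1) fun z => ?_
    obtain ⟨g, e⟩ := k3 _ ⟨z, rfl⟩
    exact ⟨g, by rw [mem_preimage, he]; exact e⟩

/-- The main statement, for a compact orbit space. -/
theorem proper (h : Cel G X) [ContinuousConstSMul G Z] {j : Z → X} (hj : IsClosedEmbedding j)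
    (he : ∀ (g : G) z, j (g • z) = g • j z) (hc : Sat (range j))
    (hq : CompactSpace (orbitRel.Quotient G Z)) : IsProperCocompact G Z :=
  h.proper_of_fo hj he (h.fo_of_quot hj.continuous he hc hq)

theorem fo_sub (h : Cel G X) (Y : SubMulAction G X) (hc : Sat (Y : Set X))
    (hq : CompactSpace (orbitRel.Quotient G Y)) : Fo G (Y : Set X) := by
  have := csub Y
  have e : range (Subtype.val : Y → X) = Y := Subtype.range_coe
  rw [← e] at hc ⊢
  exact h.fo_of_quot (Z := Y) continuous_subtype_val (fun _ _ => rfl) hc hq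

theorem proper_sub (h : Cel G X) (Y : SubMulAction G X) (hc : IsClosed (Y : Set X))
    (hY : Fo G (Y : Set X)) : IsProperCocompact G Y := by
  have e : range (Subtype.val : Y → X) = Y := Subtype.range_coe
  rw [← e] at hY
  exact h.proper_of_fo (Z := Y) hc.isClosedEmbedding_subtypeVal (fun _ _ => rfl) hY

end Cel

end Vale.Agent.P089GP
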