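import Vale.Agent.P089GP.Ext

/-! P089G: finite point stabilisers give finite cell stabilisers. -/

namespace Vale.Agent.P089GP

open Set Topology RelCWComplex MulAction

variable {G X : Type} [Group G] [TopologicalSpace X] [MulAction G X] [CWComplex (univ : Set X)]
  [T2Space X] [ContinuousConstSMul G X]

/-- An action which permutes the open cells and has finite point stabilisers. -/
theorem Cel.of_perm (perm : ∀ (g : G) (c : Cl X), ∃ d : Cl X, (g • ·) '' oc c = oc d)
    (fin : ∀ x : X, {g : G | g • x = x}.Finite) : Cel G X := by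
  have img : ∀ {g : G} {c d : Cl X} {x : X}, x ∈ oc c → g • x ∈ oc d → (g • ·) '' oc c = oc d :=
    fun {g c d x} hx hg => by
      obtain ⟨e, he⟩ := perm g c
      rw [he, oc_eq (c := e) (he ▸ mem_image_of_mem _ hx) hg]
  refine ⟨perm, fun ⟨n, j⟩ => ?_⟩
  induction n using Nat.strong_induction_on with
  | _ n ih =>
    rcases n with _ | n
    · obtain ⟨v, h⟩ : ∃ v, oc (⟨0, j⟩ : Cl X) = {v} := ⟨_, openCell_zero_eq_singleton⟩
      refine (fin v).subset fun g hg => ?_
      rw [mem_ofPred_eq, h, image_singleton] at hg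
      exact singleton_injective hg
    · obtain ⟨I, hI⟩ := CWComplex.cellFrontier_subset_finite_openCell (n + 1) j
      obtain ⟨y, hy⟩ : (cellFrontier (n + 1) j).Nonempty :=
        (NormedSpace.sphere_nonempty.2 zero_le_one).image _
      obtain ⟨m, h1, k, -, h2⟩ : ∃ m < n + 1, ∃ j ∈ I m, y ∈ openCell m j := by
        simpa only [mem_iUnion, exists_prop] using hI hy
      have h3 : ∀ e : Cl X, {g : G | g • y ∈ oc e}.Finite := fun e => by
        rcases eq_empty_or_nonempty {g : G | g • y ∈ oc e} with h0 | ⟨a, ha⟩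
        · rw [h0]
          exact finite_empty
        · refine ((ih m h1 k).image (a * ·)).subset fun g hg =>
            ⟨a⁻¹ * g, img (c := ⟨m, k⟩) h2 ?_, by simp⟩
          obtain ⟨z, hz, e⟩ : g • y ∈ (a • ·) '' oc ⟨m, k⟩ := img (c := ⟨m, k⟩) h2 ha ▸ hg
          rw [mul_smul, ← e, inv_smul_smul]
          exact hz
      refine ((fin_meet ⟨n + 1, j⟩).biUnion fun e _ => h3 e).subset fun g hg => ?_
      obtain ⟨e, he⟩ := exists_cel (g • y)
      refine mem_iUnion₂.2 ⟨e, ⟨g • y, ?_, he⟩, he⟩
      rw [← clo_oc, ← (show (g • ·) '' _ = _ from hg)]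
      exact image_closure_subset_closure_image (continuous_const_smul g)
        ⟨y, clo_oc (⟨n + 1, j⟩ : Cl X) ▸ cellFrontier_subset_closedCell _ _ hy, rfl⟩

end Vale.Agent.P089GP
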